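import Vale.Agent.P155.NT924.FatBal

/-!
# P155, NT, US: the outermost small separating set (P2 (iii))

`F` = free vertices, `W` = wall vertices, `v1` = first new vertex, `e` = a free vertex.
`kap F W v1 e h`: among the small connected free sets next to the wall which separate `e` from
`v1`, one with the smallest component of `v1`; it depends only on `F, W, v1, e, h`.
A connected set which contains `v1` and meets any set of the family meets `kap` or meets it
together with that set.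
-/

namespace Vale.Agent.P155.NT904

open Finset Relation SW HT T905 T802 G45 NT905 NT733 NT862 NT924
open NT802 (Conn)

/-- the family: small connected free sets next to the wall which separate `e` from `v1` -/
structure Fam (F W : Set Pt) (v1 e : Pt) (h : ℕ) (κ : Set Pt) : Prop where
  sub : κ ⊆ F
  ne : κ.Nonempty
  conn : ConnS κ
  wall : ∃ u ∈ κ, ∃ w ∈ W, Adj u w
  small : ∃ c, ∀ u ∈ κ, u ∈ box c (h + 1)
  tip : v1 ∉ κ
  sep : e ∉ compV F κ v1

variable {F W : Set Pt} {v1 e : Pt} {h : ℕ} {κ P : Set Pt}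

open Classical in
/-- the outermost set -/
noncomputable def kap (F W : Set Pt) (v1 e : Pt) (h : ℕ) : Set Pt :=
  if H : {κ | Fam F W v1 e h κ}.Nonempty then
    Function.argminOn (fun κ => (compV F κ v1).ncard) {κ | Fam F W v1 e h κ} H
  else ∅

theorem kap_fam (H : ∃ κ, Fam F W v1 e h κ) : Fam F W v1 e h (kap F W v1 e h) := by
  unfold kap
  rw [dif_pos (show {κ | Fam F W v1 e h κ}.Nonempty from H)]
  exact Function.argminOn_mem (fun κ => (compV F κ v1).ncard) {κ | Fam F W v1 e h κ} H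

theorem kap_min (hκ : Fam F W v1 e h κ) :
    (compV F (kap F W v1 e h) v1).ncard ≤ (compV F κ v1).ncard := by
  have H : {κ | Fam F W v1 e h κ}.Nonempty := ⟨κ, hκ⟩
  unfold kap
  rw [dif_pos H]
  exact Function.argminOn_le (fun κ => (compV F κ v1).ncard) {κ | Fam F W v1 e h κ} hκ

/-- a point of the outermost set next to the wall -/
noncomputable def kz (F W : Set Pt) (v1 e : Pt) (h : ℕ) : Pt :=
  open Classical in
  if H : ∃ u ∈ kap F W v1 e h, ∃ w ∈ W, Adj u w then Classical.choose H else (0, 0)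

theorem kz_spec (H : ∃ κ, Fam F W v1 e h κ) :
    kz F W v1 e h ∈ kap F W v1 e h ∧ ∃ w ∈ W, Adj (kz F W v1 e h) w := by
  have h1 := (kap_fam H).wall
  unfold kz
  rw [dif_pos h1]
  exact Classical.choose_spec h1

/-- the union of the tip components of two sets, each of which lies in the tip component of the
other, is everything -/
theorem both_tip {κ0 κ : Set Pt} (h0 : v1 ∉ κ0) (h1 : κ ⊆ TipC F v1 κ0) (h2 : κ0 ⊆ TipC F v1 κ)
    {u : Pt} (hu : ReflTransGen (fun a b => Adj a b ∧ b ∈ F) v1 u) :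
    u ∈ TipC F v1 κ0 ∨ u ∈ TipC F v1 κ := by
  induction hu with
  | refl => exact Or.inl ⟨h0, ReflTransGen.refl⟩
  | tail h3 h4 ih =>
    rename_i b c
    rcases ih with h | h
    · by_cases hc : c ∈ κ0
      · exact Or.inr (h2 hc)
      · exact Or.inl ⟨h0, h.2.tail ⟨h4.1, h4.2, hc⟩⟩
    · by_cases hc : c ∈ κ
      · exact Or.inl (h1 hc)
      · exact Or.inr ⟨h.1, h.2.tail ⟨h4.1, h4.2, hc⟩⟩

/-- a set which separates is reached -/
theorem reach_kap {κ : Set Pt} (hv : v1 ∉ κ)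
    (hlink : ReflTransGen (fun a b => Adj a b ∧ b ∈ F) v1 e) (he : e ∉ TipC F v1 κ) :
    ∃ z ∈ κ, ReflTransGen (fun a b => Adj a b ∧ b ∈ F) v1 z := by
  by_contra hcon
  push Not at hcon
  apply he
  refine ⟨hv, ?_⟩
  clear he
  have key : ∀ u, ReflTransGen (fun a b => Adj a b ∧ b ∈ F) v1 u →
      ReflTransGen (fun a b => Adj a b ∧ b ∈ F ∧ b ∉ κ) v1 u := by
    intro u hu
    induction hu with
    | refl => exact ReflTransGen.refl
    | tail h3 h4 ih =>
      rename_i b c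
      exact ih.tail ⟨h4.1, h4.2, fun hc => hcon c hc (h3.tail h4)⟩
  exact key e hlink

/-- **(P2 (iii))** a connected set `P ∋ v1` of free vertices which meets a set `κ` of the family:
`P` or `κ` meets the outermost set. -/
theorem outermost (hFin : F.Finite) (hlink : Conn F v1 e) (hκ : Fam F W v1 e h κ)
    {p : Pt} (hp : p ∈ κ) (hP : Conn P v1 p) (hPF : P ⊆ F) :
    (∃ u ∈ P, u ∈ kap F W v1 e h) ∨ ∃ u ∈ κ, u ∈ kap F W v1 e h := by
  by_contra hcon
  push Not at hcon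
  obtain ⟨hc1, hc2⟩ := hcon
  have hv : v1 ∈ F := hlink.1
  have h0 := kap_fam ⟨κ, hκ⟩
  have hmin := kap_min hκ
  set κ0 := kap F W v1 e h with hκ0
  have e0 := h0.sep
  have e1 := hκ.sep
  rw [compV_eq hv] at e0 e1
  rw [compV_eq hv, compV_eq hv] at hmin
  -- `κ` lies in the tip component of `κ0`
  have hp0 : p ∈ TipC F v1 κ0 := by
    refine ⟨h0.tip, ReflTransGen.mono ?_ _ _ hP.2⟩
    rintro a b ⟨h1, h2⟩
    exact ⟨h1, hPF h2, hc1 b h2⟩
  have hsub : κ ⊆ TipC F v1 κ0 := fun u hu => conn_tip hκ.sub hκ.conn hc2 hp hu hp0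
  have hd : ∀ u ∈ κ0, u ∉ κ := fun u hu hu' => hc2 u hu' hu
  obtain ⟨z, hz, hzl⟩ := reach_kap h0.tip hlink.2 e0
  have hzs : z ∉ TipC F v1 κ := by
    intro hz1
    have hsub' : κ0 ⊆ TipC F v1 κ := fun u hu => conn_tip h0.sub h0.conn hd hz hu hz1
    rcases both_tip h0.tip hsub hsub' hlink.2 with h1 | h1
    · exact e0 h1
    · exact e1 h1
  obtain ⟨hss, w, hw0, hw⟩ := tip_lt h0.sub h0.conn hd hz hzs hzl
  have hfin : (TipC F v1 κ0).Finite := hFin.subset fun u hu => tipC_fr hv hu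
  have := Set.ncard_lt_ncard (show TipC F v1 κ ⊂ TipC F v1 κ0 from
    ⟨hss, fun h => hw (h hw0)⟩) hfin
  omega

theorem dn_small {κ : Set Pt} (hs : ∃ c, ∀ u ∈ κ, u ∈ box c (h + 1)) {u v : Pt} (hu : u ∈ κ)
    (hv : v ∈ κ) : dn u v ≤ 2 * h + 2 := by
  obtain ⟨c, hc⟩ := hs
  have h1 := G45.mem_box.1 (hc u hu)
  have h2 := G45.mem_box.1 (hc v hv)
  have h3 := H904.dn_tri u c v
  have h4 : dn u c = dn c u := G45.dn_comm u c
  omega

/-- connected sets of free vertices -/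
theorem conn_fb {T : Temp} {E : Set Pt} {z : Pt} {D : ℕ} {κ : Set Pt} (hF : κ ⊆ FV T E)
    (hc : ConnS κ) (hD : ∀ u ∈ κ, dn z u ≤ D) {a b : Pt} (ha : a ∈ κ) (hb : b ∈ κ)
    (haz : a ∈ FB T E z D) : b ∈ FB T E z D := by
  refine ReflTransGen.trans (haz : ReflTransGen _ z a) ?_
  have h1 := hc a ha b hb
  clear hb
  induction h1 with
  | refl => exact ReflTransGen.refl
  | tail h2 h3 ih =>
    rename_i c d
    refine ih.tail ?_
    have hcκ : c ∈ κ := by
      rcases ReflTransGen.cases_tail h2 with h4 | ⟨w, _, _, h5⟩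
      · rw [h4]; exact ha
      · exact h5
    exact ⟨h3.1, ⟨hF hcκ, hF h3.2⟩, hD c hcκ, hD d h3.2⟩

/-- **(P2 (iii)), ball form**: the set `P` comes into the free ball of radius `4 h + 4` around the
point `kz`. -/
theorem outermost_ball {T : Temp} {E : Set Pt} (hlink : Conn (FV T E) v1 e)
    (hκ : Fam (FV T E) (SS T E) v1 e h κ) {p : Pt} (hp : p ∈ κ) (hP : Conn P v1 p)
    (hPF : P ⊆ FV T E) :
    ∃ u ∈ P, u ∈ FB T E (kz (FV T E) (SS T E) v1 e h) (4 * h + 4) := by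
  have h0 := kap_fam ⟨κ, hκ⟩
  obtain ⟨hz, -⟩ := kz_spec ⟨κ, hκ⟩
  set z := kz (FV T E) (SS T E) v1 e h with hzd
  have hdz : ∀ u ∈ kap (FV T E) (SS T E) v1 e h, dn z u ≤ 2 * h + 2 := fun u hu =>
    dn_small h0.small hz hu
  have hball : ∀ u ∈ kap (FV T E) (SS T E) v1 e h, u ∈ FB T E z (4 * h + 4) := fun u hu =>
    conn_fb h0.sub h0.conn (fun v hv => (hdz v hv).trans (by omega)) hz hu ReflTransGen.refl
  rcases outermost (FV_finite T E) hlink hκ hp hP hPF with ⟨u, hu, hu'⟩ | ⟨u, hu, hu'⟩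
  · exact ⟨u, hu, hball u hu'⟩
  · refine ⟨p, hP.right, ?_⟩
    refine conn_fb hκ.sub hκ.conn (fun v hv => ?_) hu hp (hball u hu')
    have h1 := hdz u hu'
    have h2 := dn_small hκ.small hu hv
    have h3 := H904.dn_tri z u v
    omega

/-- sets all points of which are joined to one point are connected -/
theorem connS_of {κ : Set Pt} {c : Pt} (hc : ∀ u ∈ κ, Conn κ c u) : ConnS κ := by
  intro u hu v hv
  have h1 := hc u hu
  have h2 := hc v hv
  refine ReflTransGen.trans ?_ h2.2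
  -- reverse the path
  obtain ⟨hcκ, h1⟩ := h1
  clear hu h2 hv
  induction h1 with
  | refl => exact ReflTransGen.refl
  | tail h3 h4 ih =>
    rename_i a b
    have haκ : a ∈ κ := by
      rcases ReflTransGen.cases_tail h3 with h5 | ⟨w, _, _, h6⟩
      · rw [h5]; exact hcκ
      · exact h6
    exact ReflTransGen.head ⟨E.adj_comm'.1 h4.1, haκ⟩ ih

/-- **(P2 (iii)) for the output of (ii)**: `κ` = the small set at the point `x` of the strand;
`P` = the vertices of the strand up to `x`. -/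
theorem p2_step {T : Temp} {E : Set Pt} {z0 x : Pt} (hlink : Conn (FV T E) v1 z0)
    (hx : x ∈ κ) (hκ : ∀ u ∈ κ, u ∉ SS T E ∧ dn x u ≤ h + 1 ∧ Conn κ x u)
    (hw : ∃ u ∈ κ, ∃ w ∈ SS T E, Adj u w)
    (hsep : z0 ∈ κ ∨ v1 ∈ κ ∨ ¬ Conn {y | y ∉ SS T E ∧ y ∉ κ} v1 z0)
    (hP : Conn P v1 x) (hPF : P ⊆ FV T E) :
    (∃ u ∈ P, u ∈ FB T E (kz (FV T E) (SS T E) v1 z0 h) (4 * h + 4)) ∨
      (x ∈ FB T E z0 (2 * h + 2)) ∨ dn x v1 ≤ h + 1 := by
  have hsub : κ ⊆ FV T E := fun u hu => (hκ u hu).1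
  have hc : ConnS κ := connS_of fun u hu => (hκ u hu).2.2
  have hs : ∃ c, ∀ u ∈ κ, u ∈ box c (h + 1) := ⟨x, fun u hu => G45.mem_box.2 (hκ u hu).2.1⟩
  by_cases h1 : z0 ∈ κ
  · right; left
    exact conn_fb hsub hc (fun u hu => dn_small hs h1 hu) h1 hx ReflTransGen.refl
  by_cases h2 : v1 ∈ κ
  · right; right
    exact (hκ v1 h2).2.1
  left
  have h3 : ¬ Conn {y | y ∉ SS T E ∧ y ∉ κ} v1 z0 := by
    rcases hsep with h | h | h
    · exact absurd h h1
    · exact absurd h h2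
    · exact h
  refine outermost_ball hlink (κ := κ) ⟨hsub, ⟨x, hx⟩, hc, hw, hs, h2, ?_⟩ hx hP hPF
  intro h4
  exact h3 h4

/-- the points of the outermost set are joined to `v1` -/
theorem kap_link (H : ∃ κ, Fam F W v1 e h κ) (hlink : Conn F v1 e) :
    ∀ u ∈ kap F W v1 e h, Conn F v1 u := by
  have h0 := kap_fam H
  have e0 := h0.sep
  rw [compV_eq hlink.1] at e0
  obtain ⟨z, hz, hzl⟩ := reach_kap h0.tip hlink.2 e0
  intro u hu
  refine ⟨hlink.1, hzl.trans (ReflTransGen.mono ?_ _ _ (h0.conn z hz u hu))⟩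
  rintro a b ⟨h1, h2⟩
  exact ⟨h1, h0.sub h2⟩

/-- all hypotheses of `NT924.fat` on the pair `(kap, kz)` -/
theorem kap_fat {T : Temp} {E : Set Pt} (H : ∃ κ, Fam (FV T E) (SS T E) v1 e h κ)
    (hlink : Conn (FV T E) v1 e) :
    kap (FV T E) (SS T E) v1 e h ⊆ FV T E ∧ ConnS (kap (FV T E) (SS T E) v1 e h) ∧
    kz (FV T E) (SS T E) v1 e h ∈ kap (FV T E) (SS T E) v1 e h ∧
    (∀ u ∈ kap (FV T E) (SS T E) v1 e h, dn (kz (FV T E) (SS T E) v1 e h) u ≤ 2 * h + 2) ∧
    v1 ∉ kap (FV T E) (SS T E) v1 e h ∧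
    Conn (FV T E) v1 (kz (FV T E) (SS T E) v1 e h) ∧
    e ∉ compV (FV T E) (kap (FV T E) (SS T E) v1 e h) v1 ∧
    (∀ κ : Set Pt, κ ⊆ FV T E → κ.Nonempty → ConnS κ → (∃ u ∈ κ, ∃ w ∈ SS T E, Adj u w) →
      (∃ c, ∀ u ∈ κ, u ∈ box c (h + 1)) → v1 ∉ κ → e ∉ compV (FV T E) κ v1 →
      (compV (FV T E) (kap (FV T E) (SS T E) v1 e h) v1).ncard ≤
        (compV (FV T E) κ v1).ncard) := by
  have h0 := kap_fam H
  obtain ⟨hz, -⟩ := kz_spec H
  exact ⟨h0.sub, h0.conn, hz, fun u hu => dn_small h0.small hz hu, h0.tip,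
    kap_link H hlink _ hz, h0.sep, fun κ k1 k2 k3 k4 k5 k6 k7 => kap_min ⟨k1, k2, k3, k4, k5, k6, k7⟩⟩

end Vale.Agent.P155.NT904
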