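import Vale.Agent.P155.NT904.Outermost

/-!
# P155, NT, US: the outermost small separating set inside a box (P2 (iii), restricted family)

As `Outermost.lean`, but the sets of the family are contained in a given set `B` (a box where the
separation property of the walls is available).
-/

namespace Vale.Agent.P155.NT904

open Finset Relation SW HT T905 T802 G45 NT905 NT733 NT862 NT924
open NT802 (Conn)

/-- the family: small connected free sets inside `B` next to the wall which separate `e` from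
`v1` -/
structure FamB (F W B : Set Pt) (v1 e : Pt) (h : ℕ) (κ : Set Pt) : Prop where
  sub : κ ⊆ F
  ne : κ.Nonempty
  conn : ConnS κ
  wall : ∃ u ∈ κ, ∃ w ∈ W, Adj u w
  small : ∃ c, ∀ u ∈ κ, u ∈ box c (h + 1)
  tip : v1 ∉ κ
  sep : e ∉ compV F κ v1
  inB : κ ⊆ B

variable {F W B : Set Pt} {v1 e : Pt} {h : ℕ} {κ P : Set Pt}

open Classical in
/-- the outermost set inside `B` -/
noncomputable def kapB (F W B : Set Pt) (v1 e : Pt) (h : ℕ) : Set Pt :=
  if H : {κ | FamB F W B v1 e h κ}.Nonempty then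
    Function.argminOn (fun κ => (compV F κ v1).ncard) {κ | FamB F W B v1 e h κ} H
  else ∅

theorem kapB_fam (H : ∃ κ, FamB F W B v1 e h κ) : FamB F W B v1 e h (kapB F W B v1 e h) := by
  unfold kapB
  rw [dif_pos (show {κ | FamB F W B v1 e h κ}.Nonempty from H)]
  exact Function.argminOn_mem (fun κ => (compV F κ v1).ncard) {κ | FamB F W B v1 e h κ} H

theorem kapB_min (hκ : FamB F W B v1 e h κ) :
    (compV F (kapB F W B v1 e h) v1).ncard ≤ (compV F κ v1).ncard := by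
  have H : {κ | FamB F W B v1 e h κ}.Nonempty := ⟨κ, hκ⟩
  unfold kapB
  rw [dif_pos H]
  exact Function.argminOn_le (fun κ => (compV F κ v1).ncard) {κ | FamB F W B v1 e h κ} hκ

/-- a point of the outermost set next to the wall (`e` if there is none) -/
noncomputable def kzB (F W B : Set Pt) (v1 e : Pt) (h : ℕ) : Pt :=
  open Classical in
  if H : ∃ u ∈ kapB F W B v1 e h, ∃ w ∈ W, Adj u w then Classical.choose H else e

theorem kzB_spec (H : ∃ κ, FamB F W B v1 e h κ) :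
    kzB F W B v1 e h ∈ kapB F W B v1 e h ∧ ∃ w ∈ W, Adj (kzB F W B v1 e h) w := by
  have h1 := (kapB_fam H).wall
  unfold kzB
  rw [dif_pos h1]
  exact Classical.choose_spec h1

/-- in all cases: `kzB` is `e`, or it is in `B`, free, and next to the wall -/
theorem kzB_cases (F W B : Set Pt) (v1 e : Pt) (h : ℕ) : kzB F W B v1 e h = e ∨
    (kzB F W B v1 e h ∈ B ∧ kzB F W B v1 e h ∈ F ∧ ∃ w ∈ W, Adj (kzB F W B v1 e h) w) := by
  by_cases H : ∃ κ, FamB F W B v1 e h κ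
  · right
    obtain ⟨h1, h2⟩ := kzB_spec H
    exact ⟨(kapB_fam H).inB h1, (kapB_fam H).sub h1, h2⟩
  · left
    have h0 : kapB F W B v1 e h = ∅ := by
      unfold kapB
      rw [dif_neg (show ¬ {κ | FamB F W B v1 e h κ}.Nonempty from H)]
    unfold kzB
    rw [dif_neg]
    rw [h0]
    rintro ⟨u, hu, -⟩
    exact hu

/-- **(P2 (iii))** a connected set `P ∋ v1` of free vertices which meets a set `κ` of the family:
`P` or `κ` meets the outermost set. -/
theorem outermostB (hFin : F.Finite) (hlink : Conn F v1 e) (hκ : FamB F W B v1 e h κ)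
    {p : Pt} (hp : p ∈ κ) (hP : Conn P v1 p) (hPF : P ⊆ F) :
    (∃ u ∈ P, u ∈ kapB F W B v1 e h) ∨ ∃ u ∈ κ, u ∈ kapB F W B v1 e h := by
  by_contra hcon
  push Not at hcon
  obtain ⟨hc1, hc2⟩ := hcon
  have hv : v1 ∈ F := hlink.1
  have h0 := kapB_fam ⟨κ, hκ⟩
  have hmin := kapB_min hκ
  set κ0 := kapB F W B v1 e h with hκ0
  have e0 := h0.sep
  have e1 := hκ.sep
  rw [compV_eq hv] at e0 e1
  rw [compV_eq hv, compV_eq hv] at hmin
  -- `κ` lies in the tip component of `κ0`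
  have hp0 : p ∈ TipC F v1 κ0 := by
    refine ⟨h0.tip, ReflTransGen.mono ?_ _ _ hP.2⟩
    rintro a b ⟨h1, h2⟩
    exact ⟨h1, hPF h2, hc1 b h2⟩
  have hsub : κ ⊆ TipC F v1 κ0 := fun u hu => conn_tip hκ.sub hκ.conn hc2 hp hu hp0
  have hd : ∀ u ∈ κ0, u ∉ κ := fun u hu hu' => hc2 u hu' hu
  obtain ⟨z, hz, hzl⟩ := reach_kap h0.tip hlink.2 e0
  have hzs : z ∉ TipC F v1 κ := by
    intro hz1
    have hsub' : κ0 ⊆ TipC F v1 κ := fun u hu => conn_tip h0.sub h0.conn hd hz hu hz1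
    rcases both_tip h0.tip hsub hsub' hlink.2 with h1 | h1
    · exact e0 h1
    · exact e1 h1
  obtain ⟨hss, w, hw0, hw⟩ := tip_lt h0.sub h0.conn hd hz hzs hzl
  have hfin : (TipC F v1 κ0).Finite := hFin.subset fun u hu => tipC_fr hv hu
  have := Set.ncard_lt_ncard (show TipC F v1 κ ⊂ TipC F v1 κ0 from
    ⟨hss, fun h => hw (h hw0)⟩) hfin
  omega

/-- the points of the outermost set are joined to `v1` -/
theorem kapB_link (H : ∃ κ, FamB F W B v1 e h κ) (hlink : Conn F v1 e) :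
    ∀ u ∈ kapB F W B v1 e h, Conn F v1 u := by
  have h0 := kapB_fam H
  have e0 := h0.sep
  rw [compV_eq hlink.1] at e0
  obtain ⟨z, hz, hzl⟩ := reach_kap h0.tip hlink.2 e0
  intro u hu
  refine ⟨hlink.1, hzl.trans (ReflTransGen.mono ?_ _ _ (h0.conn z hz u hu))⟩
  rintro a b ⟨h1, h2⟩
  exact ⟨h1, h0.sub h2⟩

/-- `kzB` is always joined to `v1` -/
theorem kzB_link (hlink : Conn F v1 e) : Conn F v1 (kzB F W B v1 e h) := by
  by_cases H : ∃ κ, FamB F W B v1 e h κ
  · exact kapB_link H hlink _ (kzB_spec H).1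
  · have h0 : kapB F W B v1 e h = ∅ := by
      unfold kapB
      rw [dif_neg (show ¬ {κ | FamB F W B v1 e h κ}.Nonempty from H)]
    unfold kzB
    rw [dif_neg]
    · exact hlink
    · rw [h0]
      rintro ⟨u, hu, -⟩
      exact hu

/-- **(P2 (iii)), ball form**: the set `P` comes into the free ball of radius `4 h + 4` around the
point `kzB`. -/
theorem outermostB_ball {T : Temp} {E : Set Pt} (hlink : Conn (FV T E) v1 e)
    (hκ : FamB (FV T E) (SS T E) B v1 e h κ) {p : Pt} (hp : p ∈ κ) (hP : Conn P v1 p)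
    (hPF : P ⊆ FV T E) :
    ∃ u ∈ P, u ∈ FB T E (kzB (FV T E) (SS T E) B v1 e h) (4 * h + 4) := by
  have h0 := kapB_fam ⟨κ, hκ⟩
  obtain ⟨hz, -⟩ := kzB_spec ⟨κ, hκ⟩
  set z := kzB (FV T E) (SS T E) B v1 e h with hzd
  have hdz : ∀ u ∈ kapB (FV T E) (SS T E) B v1 e h, dn z u ≤ 2 * h + 2 := fun u hu =>
    dn_small h0.small hz hu
  have hball : ∀ u ∈ kapB (FV T E) (SS T E) B v1 e h, u ∈ FB T E z (4 * h + 4) := fun u hu =>
    conn_fb h0.sub h0.conn (fun v hv => (hdz v hv).trans (by omega)) hz hu ReflTransGen.refl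
  rcases outermostB (FV_finite T E) hlink hκ hp hP hPF with ⟨u, hu, hu'⟩ | ⟨u, hu, hu'⟩
  · exact ⟨u, hu, hball u hu'⟩
  · refine ⟨p, hP.right, ?_⟩
    refine conn_fb hκ.sub hκ.conn (fun v hv => ?_) hu hp (hball u hu')
    have h1 := hdz u hu'
    have h2 := dn_small hκ.small hu hv
    have h3 := H904.dn_tri z u v
    omega

/-- **(P2 (iii)) for the output of (ii)**: `κ` = the small set at the point `x` of the strand;
`P` = the vertices of the strand up to `x`. -/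
theorem p2_stepB {T : Temp} {E : Set Pt} {z0 x : Pt} (hlink : Conn (FV T E) v1 z0)
    (hx : x ∈ κ) (hκ : ∀ u ∈ κ, u ∉ SS T E ∧ dn x u ≤ h + 1 ∧ Conn κ x u)
    (hw : ∃ u ∈ κ, ∃ w ∈ SS T E, Adj u w) (hB : κ ⊆ B)
    (hsep : z0 ∈ κ ∨ v1 ∈ κ ∨ ¬ Conn {y | y ∉ SS T E ∧ y ∉ κ} v1 z0)
    (hP : Conn P v1 x) (hPF : P ⊆ FV T E) :
    (∃ u ∈ P, u ∈ FB T E (kzB (FV T E) (SS T E) B v1 z0 h) (4 * h + 4)) ∨ dn x v1 ≤ h + 1 := by
  have hsub : κ ⊆ FV T E := fun u hu => (hκ u hu).1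
  have hc : ConnS κ := connS_of fun u hu => (hκ u hu).2.2
  have hs : ∃ c, ∀ u ∈ κ, u ∈ box c (h + 1) := ⟨x, fun u hu => G45.mem_box.2 (hκ u hu).2.1⟩
  by_cases h2 : v1 ∈ κ
  · right
    exact (hκ v1 h2).2.1
  left
  have h3 : z0 ∈ κ ∨ ¬ Conn {y | y ∉ SS T E ∧ y ∉ κ} v1 z0 := by
    rcases hsep with h | h | h
    · exact Or.inl h
    · exact absurd h h2
    · exact Or.inr h
  refine outermostB_ball hlink (κ := κ) ⟨hsub, ⟨x, hx⟩, hc, hw, hs, h2, ?_, hB⟩ hx hP hPF
  intro h4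
  rcases h3 with h | h
  · exact (h4 : Conn _ v1 z0).right.2 h
  · exact h h4

end Vale.Agent.P155.NT904
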