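import Vale.Agent.P155.A801.NTAsm
import Vale.Agent.P155.A904.Trans
import Vale.Agent.P155.NT802.Class

/-!
# P155, NT, block F with a class of polygons

`TOUCHPc F` is `TOUCHP` for the polygons of a class `F`.  `EX.PIN` and `EX.BDT` need it only for the
class `FS M S` of the polygons of one approximation `S`, and for the transposed class.
-/

namespace Vale.Agent.P155.NT

open Topology Filter MeasureTheory TopologicalSpace Vale.Agent.P155 Vale.Agent.P155.Q1 Skel D877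

/-- the transposed form of `TOUCHPc` -/
def TOUCHPTc (F : ℕ → Temp → Prop) : Prop :=
  ∀ c ε : ℝ, 0 < c → 0 < ε → ∀ K : ℕ, ∃ η : ℝ, 0 < η ∧ ∃ R0 : ℕ, ∀ R : ℕ, R0 ≤ R → ∀ T : Temp,
    Fits T R → F R T → ∀ (yS : ℤ) (q : Pt) (r : ℕ), c * R ≤ r → (16 * r : ℤ) ≤ |q.2 - yS| →
    Pr T.V (fun ω => TouchInT T yS q r ⌊η * R⌋₊ ω ∧ NX ω q (2 * r) (4 * r) ≤ K) ≤ ε

/-- the transposed class -/
def trF (F : ℕ → Temp → Prop) : ℕ → Temp → Prop := fun R T => F R (trT T)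

theorem trγ_trγ (γ : LatCycle) : trγ (trγ γ) = γ := rfl

theorem trT_trT (T : Temp) : trT (trT T) = T := rfl

/-- **transposition**: `TOUCHP` for the horizontal lines follows from `TOUCHP` for the transposed
class. -/
theorem touch_tr_c {F : ℕ → Temp → Prop} (h : NT802.TOUCHPc (trF F)) : TOUCHPTc F := by
  intro c ε hc hε K
  obtain ⟨η, hη, R0, hR0⟩ := h c ε hc hε K
  refine ⟨η, hη, R0, fun R hR T hT hF yS q r hr hq => ?_⟩
  have h1 := hR0 R hR (trT T) (fits_tr hT) (show F R (trT (trT T)) by rwa [trT_trT]) yS (tr q) r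
    hr hq
  rw [V_tr, Pr_tr] at h1
  refine le_trans ?_ h1
  refine E.Pr_mono ?_
  intro ω _ hω
  refine ⟨touchIn_tr hω.1, ?_⟩
  rw [NX_tr]
  exact hω.2

/-- the class of the polygons of an approximation -/
def FS {Ω : Set ℂ} (M : ℝ) (S : TempApprox Ω) : ℕ → Temp → Prop :=
  fun R T => ∃ n, T = S.T n ∧ R = ⌈M / S.δ n⌉₊

/-- in the class `FS M S` a large `R` means a large `n` -/
theorem FS_large {Ω : Set ℂ} (M : ℝ) (S : TempApprox Ω) (n0 : ℕ) :
    ∃ R0 : ℕ, ∀ n, R0 ≤ ⌈M / S.δ n⌉₊ → n0 ≤ n := by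
  classical
  refine ⟨(Finset.range n0).sup (fun n => ⌈M / S.δ n⌉₊) + 1, fun n hn => ?_⟩
  by_contra hlt
  push Not at hlt
  have := Finset.le_sup (f := fun n => ⌈M / S.δ n⌉₊) (Finset.mem_range.2 hlt)
  omega

/-- what is needed from `TOUCHPc` -/
def TouchAll : Prop :=
  ∀ {Ω : Set ℂ}, IsOpen Ω → Bornology.IsBounded Ω → Ω.Nonempty → SimplyConnectedSpace Ω →
    ∀ (S : TempApprox Ω) (M : ℝ), 0 < M → NT802.TOUCHPc (FS M S) ∧ TOUCHPTc (FS M S)

/-- **the probability of a touching in one of the boxes of the net** -/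
theorem net_prob_c (hBD : BD) (hh : CROSS hor) (hv : CROSS ver)
    {Ω : Set ℂ} (hΩ : IsOpen Ω) (hb : Bornology.IsBounded Ω) (hne : Ω.Nonempty)
    (hsc : SimplyConnectedSpace Ω) (S : TempApprox Ω) (hT : ∀ M : ℝ, 0 < M → NT802.TOUCHPc (FS M S))
    (hTT : ∀ M : ℝ, 0 < M → TOUCHPTc (FS M S)) {ρ ε : ℝ} (hρ : 0 < ρ) (hε : 0 < ε) :
    ∃ (N : ℕ) (κ : ℝ), 0 < κ ∧ ∀ᶠ n in atTop, ∃ r e : ℕ, 0 < r ∧ 400 * S.δ n * r ≤ ρ ∧
      (∀ v ∈ (S.T n).V, |v.1| ≤ N * r ∧ |v.2| ≤ N * r) ∧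
      (∀ k : ℕ, (k : ℝ) ≤ κ / S.δ n → k ≤ e) ∧
      Pr (S.T n).V (fun ω => ∃ p ∈ net N,
        TouchIn (S.T n) ((ctrN r p).1 + 18 * p.2 * r) (ctrN r p) r e ω ∨
        TouchInT (S.T n) ((ctrN r p).2 + 18 * p.2 * r) (ctrN r p) r e ω) ≤ ε := by
  classical
  obtain ⟨M, hM, hfit⟩ := BD.fits_ev hb S
  obtain ⟨K, hK⟩ := pieces hBD hh hv hΩ hb hne hsc S (ρ := ρ / 400) (ε := ε / 2) (by positivity)
    (by positivity)
  set N : ℕ := ⌈1600 * M / ρ⌉₊ with hN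
  have hNr : 1600 * M / ρ ≤ N := Nat.le_ceil _
  have hcard : (0 : ℝ) < (net N).card := by exact_mod_cast net_card_pos N
  set ε' : ℝ := ε / (4 * (net N).card) with hε'
  have hε'0 : 0 < ε' := by positivity
  set c : ℝ := ρ / (1600 * M) with hc
  have hc0 : 0 < c := by positivity
  obtain ⟨η1, hη1, R1, hT1⟩ := hT M hM c ε' hc0 hε'0 K
  obtain ⟨η2, hη2, R2, hT2⟩ := hTT M hM c ε' hc0 hε'0 K
  set η : ℝ := min η1 η2 with hη
  have hη0 : 0 < η := lt_min hη1 hη2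
  refine ⟨N, η * M, by positivity, ?_⟩
  have hd1 : ∀ᶠ n in atTop, S.δ n < M / 2 :=
    S.mesh.eventually (gt_mem_nhds (show (0 : ℝ) < M / 2 by positivity))
  have hd2 : ∀ᶠ n in atTop, S.δ n < ρ / 800 :=
    S.mesh.eventually (gt_mem_nhds (show (0 : ℝ) < ρ / 800 by positivity))
  have hd3 : ∀ᶠ n in atTop, S.δ n < M / (max R1 R2 + 1 : ℕ) :=
    S.mesh.eventually (gt_mem_nhds (show (0 : ℝ) < M / (max R1 R2 + 1 : ℕ) by positivity))
  filter_upwards [hfit, hK, hd1, hd2, hd3] with n hfit hK hd1 hd2 hd3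
  have hδ := S.pos n
  set δ := S.δ n with hδdef
  set R : ℕ := ⌈M / δ⌉₊ with hR
  set r : ℕ := ⌊ρ / (400 * δ)⌋₊ with hr
  have hx : 2 ≤ ρ / (400 * δ) := by
    rw [le_div_iff₀ (by positivity)]
    linarith
  have hr1 : ρ / (400 * δ) - 1 < r := Nat.sub_one_lt_floor _
  have hr2 : (r : ℝ) ≤ ρ / (400 * δ) := Nat.floor_le (by positivity)
  have hr3 : ρ / (800 * δ) ≤ r := by
    have : ρ / (800 * δ) = ρ / (400 * δ) / 2 := by
      field_simp
      norm_num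
    rw [this]
    linarith
  have hr0 : 0 < r := by
    have : (0 : ℝ) < r := lt_of_lt_of_le (by positivity) hr3
    exact_mod_cast this
  have hR1 : M / δ ≤ R := Nat.le_ceil _
  have hR2 : (R : ℝ) < M / δ + 1 := Nat.ceil_lt_add_one (by positivity)
  have hMd : 2 < M / δ := by
    rw [lt_div_iff₀ hδ]
    linarith
  have hRmax : max R1 R2 ≤ R := by
    have h1 : ((max R1 R2 + 1 : ℕ) : ℝ) < M / δ := by
      rw [lt_div_iff₀ hδ]
      rw [lt_div_iff₀ (by positivity)] at hd3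
      linarith
    have h2 : ((max R1 R2 + 1 : ℕ) : ℝ) < R := h1.trans_le hR1
    have h3 : max R1 R2 + 1 < R := by exact_mod_cast h2
    omega
  have hcR : c * R ≤ r := by
    refine le_trans ?_ hr3
    have h1 : (R : ℝ) ≤ 2 * (M / δ) := by linarith
    calc c * R ≤ c * (2 * (M / δ)) := by gcongr
      _ = ρ / (800 * δ) := by
        rw [hc]
        field_simp
        norm_num
  refine ⟨r, ⌊η * R⌋₊, hr0, ?_, ?_, ?_, ?_⟩
  · have : ρ / (400 * δ) * (400 * δ) = ρ := by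
      field_simp
    nlinarith
  · intro v hv
    obtain ⟨h1, h2⟩ := abs_le_of_fits hfit hv
    have h3 : (R : ℝ) + 1 ≤ N * r := by
      calc (R : ℝ) + 1 ≤ 2 * (M / δ) := by linarith
        _ = 1600 * M / ρ * (ρ / (800 * δ)) := by
            field_simp
            norm_num
        _ ≤ N * r := by gcongr
    have h4 : (R : ℤ) + 1 ≤ N * r := by exact_mod_cast h3
    exact ⟨h1.trans h4, h2.trans h4⟩
  · intro k hk
    apply Nat.le_floor
    refine hk.trans ?_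
    calc η * M / δ = η * (M / δ) := by ring
      _ ≤ η * R := by gcongr
  -- the union bound
  have hmono1 : ⌊η * R⌋₊ ≤ ⌊η1 * R⌋₊ := by
    apply Nat.floor_le_floor
    gcongr
    exact min_le_left _ _
  have hmono2 : ⌊η * R⌋₊ ≤ ⌊η2 * R⌋₊ := by
    apply Nat.floor_le_floor
    gcongr
    exact min_le_right _ _
  have hcov : ∀ ω ∈ DD (S.T n).V, (∃ p ∈ net N,
        TouchIn (S.T n) ((ctrN r p).1 + 18 * p.2 * r) (ctrN r p) r ⌊η * R⌋₊ ω ∨
        TouchInT (S.T n) ((ctrN r p).2 + 18 * p.2 * r) (ctrN r p) r ⌊η * R⌋₊ ω) →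
      (ManyP S n (ρ / 400) K ω ∨ ∃ p ∈ net N,
        ((TouchIn (S.T n) ((ctrN r p).1 + 18 * p.2 * r) (ctrN r p) r ⌊η1 * R⌋₊ ω ∧
          NX ω (ctrN r p) (2 * r) (4 * r) ≤ K) ∨
        (TouchInT (S.T n) ((ctrN r p).2 + 18 * p.2 * r) (ctrN r p) r ⌊η2 * R⌋₊ ω ∧
          NX ω (ctrN r p) (2 * r) (4 * r) ≤ K))) := by
    rintro ω hω ⟨p, hp, h⟩
    by_cases hnx : NX ω (ctrN r p) (2 * r) (4 * r) ≤ K
    · right
      refine ⟨p, hp, ?_⟩
      rcases h with h | h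
      · exact Or.inl ⟨TouchIn_mono hmono1 h, hnx⟩
      · exact Or.inr ⟨TouchInT_mono hmono2 h, hnx⟩
    · left
      push Not at hnx
      refine many_of_nx S hω ?_ hnx
      push_cast
      have h1 : ρ / (800 * δ) * (800 * δ) = ρ := by
        field_simp
      have h2 : ρ / (800 * δ) * (800 * δ) ≤ r * (800 * δ) := by gcongr
      have h3 : δ * (4 * (r : ℝ) - 2 * r) = 2 * (δ * r) := by ring
      rw [← hδdef, h3]
      linarith
  refine (E.Pr_mono hcov).trans ?_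
  refine (E.Pr_or_le _ _ _).trans ?_
  have h2 := E.Pr_exists_le_card (S.T n).V (net N) (fun p ω =>
    ((TouchIn (S.T n) ((ctrN r p).1 + 18 * p.2 * r) (ctrN r p) r ⌊η1 * R⌋₊ ω ∧
          NX ω (ctrN r p) (2 * r) (4 * r) ≤ K) ∨
        (TouchInT (S.T n) ((ctrN r p).2 + 18 * p.2 * r) (ctrN r p) r ⌊η2 * R⌋₊ ω ∧
          NX ω (ctrN r p) (2 * r) (4 * r) ≤ K))) (b := 2 * ε') (by
      intro p hp
      have hp2 : p.2 = 1 ∨ p.2 = -1 := by
        unfold net at hp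
        have := (Finset.mem_product.1 hp).2
        simpa using this
      have habs : ∀ x : ℤ, (16 * r : ℤ) ≤ |x - (x + 18 * p.2 * r)| := by
        intro x
        have hr' : (0 : ℤ) < r := by exact_mod_cast hr0
        have e : x - (x + 18 * p.2 * r) = -(18 * p.2 * r) := by ring
        rw [e, abs_neg]
        rcases hp2 with h | h <;> rw [h]
        · rw [abs_of_nonneg (by positivity)]
          linarith
        · rw [abs_of_nonpos (by linarith)]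
          linarith
      refine (E.Pr_or_le _ _ _).trans ?_
      have t1 := hT1 R ((le_max_left _ _).trans hRmax) (S.T n) hfit ⟨n, rfl, rfl⟩ _ (ctrN r p) r hcR (habs _)
      have t2 := hT2 R ((le_max_right _ _).trans hRmax) (S.T n) hfit ⟨n, rfl, rfl⟩ _ (ctrN r p) r hcR (habs _)
      linarith)
  have h3 : ((net N).card : ℝ) * (2 * ε') = ε / 2 := by
    rw [hε']
    field_simp
    norm_num
  linarith

/-- **PIN from TOUCHP** -/
theorem pin_of_c (hT : TouchAll) (hBD : BD) (hh : CROSS hor) (hv : CROSS ver) :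
    EX.PIN := by
  intro Ω hΩ hb hne hsc S κ0 ρ _ hρ ε hε
  obtain ⟨N, κ, hκ, hev⟩ := net_prob_c hBD hh hv hΩ hb hne hsc S (fun M hM => (hT hΩ hb hne hsc S M hM).1)
    (fun M hM => (hT hΩ hb hne hsc S M hM).2) hρ hε
  refine ⟨min κ (ρ / 8), lt_min hκ (by positivity), ?_⟩
  filter_upwards [hev] with n hn
  obtain ⟨r, e, hr0, hr, hV, he, hP⟩ := hn
  refine le_trans (E.Pr_mono ?_) hP
  rintro ω hω ⟨v, i, hvl, -, hi, hclose, hfar1, hfar2⟩
  have hvV : v ∈ (S.T n).V := mem_V_of_loop hω hvl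
  have hδ := S.pos n
  set δ := S.δ n with hδdef
  set a := S.a n with hadef
  -- two far points
  obtain ⟨j1, hj1, hd1⟩ : ∃ j ≤ i, ρ / 2 ≤ dist (pt δ a v) (pt δ a ((SW.suc ω)^[j] v)) := by
    obtain ⟨j, hj, j', hj', h⟩ := hfar1
    rcases far_half (x := pt δ a v) h with h | h
    exacts [⟨j, hj, h⟩, ⟨j', hj', h⟩]
  have hit : ∀ k, (SW.suc ω)^[k] ((SW.suc ω)^[i] v) = (SW.suc ω)^[i + k] v := by
    intro k
    rw [add_comm, Function.iterate_add_apply]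
  obtain ⟨j2, hj2, hj2', hd2⟩ : ∃ j, i ≤ j ∧ j ≤ (comp ω v).ncard ∧
      ρ / 2 - ρ / 8 ≤ dist (pt δ a v) (pt δ a ((SW.suc ω)^[j] v)) := by
    obtain ⟨j, hj, j', hj', h⟩ := hfar2
    rw [hit, hit] at h
    have hc2 : dist (pt δ a v) (pt δ a ((SW.suc ω)^[i] v)) ≤ ρ / 8 :=
      hclose.trans (min_le_right _ _)
    have key : ∀ k, ρ / 2 ≤ dist (pt δ a ((SW.suc ω)^[i] v)) (pt δ a ((SW.suc ω)^[i + k] v)) →
        ρ / 2 - ρ / 8 ≤ dist (pt δ a v) (pt δ a ((SW.suc ω)^[i + k] v)) := by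
      intro k hk
      have := dist_triangle (pt δ a ((SW.suc ω)^[i] v)) (pt δ a v)
        (pt δ a ((SW.suc ω)^[i + k] v))
      rw [dist_comm (pt δ a ((SW.suc ω)^[i] v)) (pt δ a v)] at this
      linarith
    rcases far_half (x := pt δ a ((SW.suc ω)^[i] v)) h with h | h
    exacts [⟨i + j, by omega, by omega, key _ h⟩, ⟨i + j', by omega, by omega, key _ h⟩]
  have hbig : ∀ u : Pt, ρ / 2 - ρ / 8 ≤ dist (pt δ a v) (pt δ a u) → 60 * r ≤ dn v u := by
    intro u hu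
    have h1 := dist_le_dn hδ a v u
    have h2 : 60 * (r : ℝ) * δ < dn v u * δ + δ * 1 * 0 + δ * (r : ℝ) := by nlinarith
    have h3 : (60 * r : ℝ) ≤ dn v u := by
      have h4 : 400 * δ * r * (3 / 8) ≤ 2 * δ * dn v u := by linarith
      have h5 : 150 * (r : ℝ) * δ ≤ 2 * dn v u * δ := by linarith
      have h6 := le_of_mul_le_mul_right h5 hδ
      have h7 : (0 : ℝ) ≤ r := Nat.cast_nonneg r
      linarith
    exact_mod_cast h3
  have hb1 := hbig _ (by linarith : ρ / 2 - ρ / 8 ≤ dist (pt δ a v)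
    (pt δ a ((SW.suc ω)^[j1] v)))
  have hb2 := hbig _ hd2
  refine touch_net hω hr0 hvl (hV v hvV).1 (hV v hvV).2 hb1 (fun q hq => Or.inl ⟨i, hi, ?_, ?_, ?_⟩)
  · apply he
    rw [le_div_iff₀ hδ]
    have := dn_le_dist hδ a v ((SW.suc ω)^[i] v)
    have h2 := hclose.trans (min_le_left _ _)
    linarith
  · refine ⟨j1, hj1, ?_⟩
    have := H904.dn_tri v q ((SW.suc ω)^[j1] v)
    rw [H904.dn_comm v q] at this
    omega
  · refine ⟨j2, hj2, hj2', ?_⟩
    have := H904.dn_tri v q ((SW.suc ω)^[j2] v)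
    rw [H904.dn_comm v q] at this
    omega

/-- **BDT from TOUCHP** -/
theorem bdt_of_c (hT : TouchAll) (hBD : BD) (hh : CROSS hor) (hv : CROSS ver) :
    EX.BDT := by
  intro Ω hΩ hb hne hsc S ρ hρ ε hε
  obtain ⟨N, κ, hκ, hev⟩ := net_prob_c hBD hh hv hΩ hb hne hsc S (fun M hM => (hT hΩ hb hne hsc S M hM).1)
    (fun M hM => (hT hΩ hb hne hsc S M hM).2) hρ hε
  have hfne : (frontier Ω).Nonempty := by
    apply nonempty_frontier_iff.2
    refine ⟨hne, fun h => ?_⟩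
    rw [h] at hb
    exact NormedSpace.unbounded_univ ℝ ℂ hb
  refine ⟨κ / 8, by positivity, ?_⟩
  filter_upwards [hev, BD.dU_le_ev hfne S (η := κ / 8) (by positivity),
    S.mesh.eventually (gt_mem_nhds (show (0 : ℝ) < κ / 8 by positivity))] with n hn hdU hδκ
  obtain ⟨r, e, hr0, hr, hV, he, hP⟩ := hn
  refine le_trans (E.Pr_mono ?_) hP
  rintro ω hω ⟨v, hvl, hclose, x, hx, y, hy, hxy⟩
  have hvV : v ∈ (S.T n).V := mem_V_of_loop hω hvl
  have hδ := S.pos n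
  set δ := S.δ n with hδdef
  set a := S.a n with hadef
  obtain ⟨u, hu, hd⟩ : ∃ u ∈ comp ω v, ρ / 2 ≤ dist (pt δ a v) (pt δ a u) := by
    rcases far_half (x := pt δ a v) hxy with h | h
    exacts [⟨x, hx, h⟩, ⟨y, hy, h⟩]
  obtain ⟨j, -, rfl⟩ := exists_iter hω hvV hu
  have hb1 : 60 * r ≤ dn v ((SW.suc ω)^[j] v) := by
    have h1 := dist_le_dn hδ a v ((SW.suc ω)^[j] v)
    have h5 : 200 * (r : ℝ) * δ ≤ 2 * dn v ((SW.suc ω)^[j] v) * δ := by linarith
    have h6 := le_of_mul_le_mul_right h5 hδ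
    have h7 : (0 : ℝ) ≤ r := Nat.cast_nonneg r
    have h3 : (60 * r : ℝ) ≤ dn v ((SW.suc ω)^[j] v) := by linarith
    exact_mod_cast h3
  have h1 := hdU ((v.1 : ℂ) + (v.2 : ℂ) * Complex.I) (by
    have : a + δ * ((v.1 : ℂ) + (v.2 : ℂ) * Complex.I) = pt δ a v := rfl
    rw [this]
    exact hclose)
  have h2 : BD.dU (S.T n) ((v.1 : ℂ) + (v.2 : ℂ) * Complex.I) < κ / (2 * δ) := by
    rw [lt_div_iff₀ (by positivity)]
    have h3 : δ * BD.dU (S.T n) ((v.1 : ℂ) + (v.2 : ℂ) * Complex.I) ≤ 2 * (κ / 8) := h1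
    linarith
  obtain ⟨f, hf, hfd⟩ := exists_out h2
  refine touch_net hω hr0 hvl (hV v hvV).1 (hV v hvV).2 hb1 (fun q hq => Or.inr ⟨f, hf, ?_⟩)
  apply he
  refine hfd.trans ?_
  have h3 : 8 < κ / δ := by
    rw [lt_div_iff₀ hδ]
    linarith
  have h4 : κ / (2 * δ) = κ / δ / 2 := by
    field_simp
  rw [h4]
  linarith

end Vale.Agent.P155.NT
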