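import Vale.Agent.P155.NT904.Class
import Vale.Agent.P155.NT924.LassoGlue

/-!
# P155, NT: `EX.PIN` and `EX.BDT` from the one-step estimate for the polygons of an approximation
-/

namespace Vale.Agent.P155.NT

open Topology Filter MeasureTheory TopologicalSpace Vale.Agent.P155 Vale.Agent.P155.Q1 Skel D877

/-- what is needed from block E: the one-step estimate in the classes `FS M S` and their
transposes -/
def OneStepAll : Prop :=
  ∀ {Ω : Set ℂ}, IsOpen Ω → Bornology.IsBounded Ω → Ω.Nonempty → SimplyConnectedSpace Ω →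
    ∀ (S : TempApprox Ω) (M : ℝ), 0 < M →
      NT802.OneStepC (FS M S) ∧ NT802.OneStepC (trF (FS M S))

theorem touchAll_of (h : OneStepAll) : TouchAll := by
  intro Ω hΩ hb hne hsc S M hM
  obtain ⟨h1, h2⟩ := h hΩ hb hne hsc S M hM
  exact ⟨NT802.touchp_c NT924.lassoP h1, touch_tr_c (NT802.touchp_c NT924.lassoP h2)⟩

theorem pin_bdt_of (h : OneStepAll) (hBD : BD) (hh : CROSS hor) (hv : CROSS ver) :
    EX.PIN ∧ EX.BDT :=
  ⟨pin_of_c (touchAll_of h) hBD hh hv, bdt_of_c (touchAll_of h) hBD hh hv⟩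

end Vale.Agent.P155.NT
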