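import Vale.Agent.P155.NT814.US.Strand
import Vale.Agent.P155.NT730.Zf
import Vale.Agent.P155.NT904.OutB

/-!
# P155, NT, US: the finite set of points `e` and the outermost point are known at the beginning of
the excursion
-/

namespace Vale.Agent.P155.NT904

open Finset Vale.Agent.P155 T802 T862 T905 J NT NT733 Function Skel NT802 NT276 NT730 NT924

variable {T : Temp} {xS : ℤ} {ω ω' : Conf} {q : Pt} {r k : ℕ}

theorem pEq_ne {v w : Pt} (h : Go.PEq ω ω' v) : (w ≠ ω.1 v ∧ w ≠ ω.2 v) ↔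
    (w ≠ ω'.1 v ∧ w ≠ ω'.2 v) := by
  rcases h with ⟨h1, h2⟩ | ⟨h1, h2⟩
  · rw [h1, h2]
  · rw [h1, h2, and_comm]

/-- **measurability of `Zf`**: it depends only on `E`, the component of `v1` and the unordered loop
edges at the explored vertices of the annulus -/
theorem Zf_congrP {E : Set Pt} {y v1 : Pt} {s a b : ℕ}
    (h : ∀ v ∈ E, a < dn y v → dn y v < b → Go.PEq ω ω' v) :
    Zf T ω' E y s a b v1 = Zf T ω E y s a b v1 := by
  classical
  have h1 : SStep ω' E y a b = SStep ω E y a b := by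
    funext f f'
    apply propext
    constructor
    · rintro ⟨v, w, k1, k2, k3, k4, k5, k6, k7⟩
      obtain ⟨e1, e2⟩ := (pEq_ne (h v k1 k2 k3)).2 ⟨k5, k6⟩
      exact ⟨v, w, k1, k2, k3, k4, e1, e2, k7⟩
    · rintro ⟨v, w, k1, k2, k3, k4, k5, k6, k7⟩
      obtain ⟨e1, e2⟩ := (pEq_ne (h v k1 k2 k3)).1 ⟨k5, k6⟩
      exact ⟨v, w, k1, k2, k3, k4, e1, e2, k7⟩
  have h2 : Side ω' E y a b = Side ω E y a b := by
    funext f f'
    unfold Side
    rw [h1]
  have h3 : rep T ω' E y s a b v1 = rep T ω E y s a b v1 := by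
    funext f
    unfold rep
    rw [h2]
  unfold Zf
  rw [h3]

/-- `Zf` is known at the beginning of the excursion -/
theorem at_Zf (y : Pt) (s a b : ℕ) : NT905.At (NT905.tE T.V xS q r k) (fun ω =>
    Zf T ω (NT814.US.EN T xS ω q r k) y s a b (NT814.US.v1N T xS q r k ω)) where
  det ω hω ω' hω' hE := by
    have h1 := (NT814.US.at_EN (T := T) (xS := xS) (q := q) (r := r) (k := k)).det ω hω ω' hω' hE
    have h2 := (NT814.US.at_v1 (T := T) (xS := xS) (q := q) (r := r) (k := k)).det ω hω ω' hω' hE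
    rw [h1, h2]
    refine Zf_congrP fun v hv _ _ => Go.PEq.of_onE hE ?_
    rw [NT814.US.eN_eq]
    exact hv
  uns ω hω ω' hω' hU := by
    have h1 := (NT814.US.at_EN (T := T) (xS := xS) (q := q) (r := r) (k := k)).uns ω hω ω' hω' hU
    have h2 := (NT814.US.at_v1 (T := T) (xS := xS) (q := q) (r := r) (k := k)).uns ω hω ω' hω' hU
    rw [h1, h2]
    exact Zf_congrP fun v _ _ _ => Go.PEq.of_uEq hU v

/-- the outermost point is known at the beginning of the excursion -/
theorem at_kzB {B : Set Pt} {h : ℕ} {z : Conf → Pt} (hz : NT905.At (NT905.tE T.V xS q r k) z) :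
    NT905.At (NT905.tE T.V xS q r k) (fun ω => kzB (FV T (NT814.US.EN T xS ω q r k))
      (SS T (NT814.US.EN T xS ω q r k)) B (NT814.US.v1N T xS q r k ω) (z ω) h) :=
  (NT814.US.at_EN.comp₂ (fun E (p : Pt × Pt) => kzB (FV T E) (SS T E) B p.1 p.2 h)
    (NT814.US.at_v1.comp₂ (fun u v => (u, v)) hz))

/-- the members of a finite set which is known -/
theorem at_list {τ : Tm.GTime T.V xS} {Z : Conf → Finset Pt} (hZ : NT905.At τ Z) (i : ℕ) (d : Pt) :
    NT905.At τ (fun ω => (Z ω).toList.getD i d) :=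
  hZ.comp₁ (fun s => s.toList.getD i d)

/-- every member of the set is the `i`-th one, for some `i` smaller than the bound -/
theorem exists_list {Z : Finset Pt} {N : ℕ} (hN : Z.card ≤ N) {z : Pt} (hz : z ∈ Z) (d : Pt) :
    ∃ i < N, Z.toList.getD i d = z := by
  obtain ⟨i, hi, h⟩ := List.getElem_of_mem (Finset.mem_toList.2 hz)
  refine ⟨i, ?_, ?_⟩
  · rw [Finset.length_toList] at hi
    omega
  · rw [List.getD_eq_getElem _ _ hi, h]

theorem list_mem {Z : Finset Pt} {i : ℕ} (hi : i < Z.card) (d : Pt) : Z.toList.getD i d ∈ Z := by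
  rw [← Finset.length_toList] at hi
  rw [List.getD_eq_getElem _ _ hi]
  exact Finset.mem_toList.1 (List.getElem_mem hi)

end Vale.Agent.P155.NT904
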